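import Mathlib

/-!
P090: Lipschitz-free spaces and the bounded approximation property, definitions.

* `Lip0 M o`: the Lipschitz functions `M → ℝ` vanishing at the base point `o`, normed by the
  Lipschitz constant `lipNorm` (the least `K ≥ 0` with `|f x - f y| ≤ K * dist x y`).
* `delta M o x`: the evaluation functional at `x` on `Lip0 M o`.
* `free M o`: the closed linear span of the evaluation functionals in the dual of `Lip0 M o`.
* `BAP lam X`: the `lam`-bounded approximation property of a real normed space `X`.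
* `FreeBAP lam M o`: the space `free M o` has the `lam`-bounded approximation property.
* `UniformlyDiscrete M`: the nonzero distances of `M` are bounded below by a positive constant.
-/

namespace Vale.Agent.Lib.P090.H89

open scoped NNReal

universe u

section

variable (M : Type u) [MetricSpace M]

/-- The Lipschitz functions `M → ℝ` that vanish at the base point `o`, as a linear subspace of
the space of all real functions on `M`. -/
def lip0Sub (o : M) : Submodule ℝ (M → ℝ) where
  carrier := {f | f o = 0 ∧ ∃ K : ℝ≥0, LipschitzWith K f}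
  add_mem' := by
    rintro f g ⟨hf0, Kf, hf⟩ ⟨hg0, Kg, hg⟩
    exact ⟨by simp [hf0, hg0], Kf + Kg, hf.add hg⟩
  zero_mem' := ⟨rfl, 0, LipschitzWith.const (0 : ℝ)⟩
  smul_mem' := by
    rintro c f ⟨hf0, Kf, hf⟩
    refine ⟨by simp [hf0], ‖c‖₊ * Kf, ?_⟩
    refine LipschitzWith.of_dist_le_mul fun x y => ?_
    have h1 := hf.dist_le_mul x y
    have h2 : dist ((c • f) x) ((c • f) y) = ‖c‖ * dist (f x) (f y) := by
      simp only [Pi.smul_apply, smul_eq_mul, Real.dist_eq, ← mul_sub, abs_mul, Real.norm_eq_abs]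
    rw [h2, NNReal.coe_mul, coe_nnnorm, mul_assoc]
    exact mul_le_mul_of_nonneg_left h1 (norm_nonneg c)

/-- `Lip_0(M)`: the type of Lipschitz functions `M → ℝ` vanishing at the base point `o`.
It is a copy of the subspace `lip0Sub M o` that does NOT carry the topology of pointwise
convergence; its topology is the one of the norm defined below (the Lipschitz constant). -/
def Lip0 (o : M) : Type u := ↥(lip0Sub M o)

instance instAddCommGroupLip0 (o : M) : AddCommGroup (Lip0 M o) :=
  Submodule.addCommGroup (lip0Sub M o)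

instance instModuleLip0 (o : M) : Module ℝ (Lip0 M o) :=
  Submodule.module (lip0Sub M o)

variable {M}

/-- The function underlying an element of `Lip0 M o`. -/
def Lip0.fn {o : M} (f : Lip0 M o) : M → ℝ := Subtype.val (p := fun g => g ∈ lip0Sub M o) f

theorem Lip0.fn_add {o : M} (f g : Lip0 M o) (x : M) : (f + g).fn x = f.fn x + g.fn x := rfl

theorem Lip0.fn_neg {o : M} (f : Lip0 M o) (x : M) : (-f).fn x = -f.fn x := rfl

theorem Lip0.fn_smul {o : M} (c : ℝ) (f : Lip0 M o) (x : M) : (c • f).fn x = c * f.fn x := rfl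

theorem Lip0.fn_zero {o : M} (x : M) : (0 : Lip0 M o).fn x = 0 := rfl

theorem Lip0.fn_base {o : M} (f : Lip0 M o) : f.fn o = 0 :=
  (Subtype.property (p := fun g => g ∈ lip0Sub M o) f).1

theorem Lip0.fn_lipschitz {o : M} (f : Lip0 M o) : ∃ K : ℝ≥0, LipschitzWith K f.fn :=
  (Subtype.property (p := fun g => g ∈ lip0Sub M o) f).2

theorem Lip0.ext {o : M} {f g : Lip0 M o} (h : ∀ x, f.fn x = g.fn x) : f = g :=
  Subtype.ext (funext h)

/-- The element of `Lip0 M o` given by a Lipschitz function vanishing at `o`. -/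
def Lip0.mk {o : M} (f : M → ℝ) (h0 : f o = 0) (K : ℝ≥0) (hK : LipschitzWith K f) : Lip0 M o :=
  (⟨f, h0, K, hK⟩ : ↥(lip0Sub M o))

theorem Lip0.mk_fn {o : M} (f : M → ℝ) (h0 : f o = 0) (K : ℝ≥0) (hK : LipschitzWith K f)
    (x : M) : (Lip0.mk f h0 K hK).fn x = f x := rfl

/-- The Lipschitz constant of `f`: the least `K ≥ 0` with `|f x - f y| ≤ K * dist x y` for all
`x`, `y`. -/
noncomputable def lipNorm {o : M} (f : Lip0 M o) : ℝ :=
  sInf {K : ℝ | 0 ≤ K ∧ ∀ x y : M, |f.fn x - f.fn y| ≤ K * dist x y}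

theorem lipSet_nonempty {o : M} (f : Lip0 M o) :
    {K : ℝ | 0 ≤ K ∧ ∀ x y : M, |f.fn x - f.fn y| ≤ K * dist x y}.Nonempty := by
  obtain ⟨K, hK⟩ := f.fn_lipschitz
  refine ⟨K, K.2, fun x y => ?_⟩
  have := hK.dist_le_mul x y
  rwa [Real.dist_eq] at this

theorem lipSet_bddBelow {o : M} (f : Lip0 M o) :
    BddBelow {K : ℝ | 0 ≤ K ∧ ∀ x y : M, |f.fn x - f.fn y| ≤ K * dist x y} :=
  ⟨0, fun _ hK => hK.1⟩

theorem lipNorm_nonneg {o : M} (f : Lip0 M o) : 0 ≤ lipNorm f :=
  le_csInf (lipSet_nonempty f) fun _ hK => hK.1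

/-- The infimum is attained: `lipNorm f` is a Lipschitz constant of `f`. -/
theorem lipNorm_spec {o : M} (f : Lip0 M o) (x y : M) :
    |f.fn x - f.fn y| ≤ lipNorm f * dist x y := by
  rcases eq_or_ne (dist x y) 0 with h | h
  · have hxy : x = y := dist_eq_zero.mp h
    simp [hxy]
  · have hpos : 0 < dist x y := lt_of_le_of_ne dist_nonneg (Ne.symm h)
    rw [← div_le_iff₀ hpos]
    refine le_csInf (lipSet_nonempty f) fun K hK => ?_
    rw [div_le_iff₀ hpos]
    exact hK.2 x y

theorem lipNorm_le {o : M} (f : Lip0 M o) (K : ℝ) (hK : 0 ≤ K)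
    (h : ∀ x y, |f.fn x - f.fn y| ≤ K * dist x y) : lipNorm f ≤ K :=
  csInf_le (lipSet_bddBelow f) ⟨hK, h⟩

theorem lipNorm_neg_le {o : M} (f : Lip0 M o) : lipNorm (-f) ≤ lipNorm f := by
  refine lipNorm_le (-f) _ (lipNorm_nonneg f) fun x y => ?_
  have h := lipNorm_spec f x y
  rw [Lip0.fn_neg, Lip0.fn_neg, neg_sub_neg, abs_sub_comm]
  exact h

/-- The Lipschitz constant as a group norm on `Lip0 M o`. -/
noncomputable def lipAddGroupNorm (o : M) : AddGroupNorm (Lip0 M o) where
  toFun := lipNorm
  map_zero' := le_antisymm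
    (lipNorm_le 0 0 le_rfl fun x y => by simp [Lip0.fn_zero]) (lipNorm_nonneg 0)
  add_le' f g := by
    refine lipNorm_le (f + g) _ (add_nonneg (lipNorm_nonneg f) (lipNorm_nonneg g)) fun x y => ?_
    have h1 := lipNorm_spec f x y
    have h2 := lipNorm_spec g x y
    rw [Lip0.fn_add, Lip0.fn_add]
    have e : f.fn x + g.fn x - (f.fn y + g.fn y) = (f.fn x - f.fn y) + (g.fn x - g.fn y) := by
      ring
    rw [e, add_mul]
    exact (abs_add_le _ _).trans (add_le_add h1 h2)
  neg' f := le_antisymm (lipNorm_neg_le f) (by simpa using lipNorm_neg_le (-f))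
  eq_zero_of_map_eq_zero' f hf := by
    apply Lip0.ext
    intro x
    have h := lipNorm_spec f x o
    rw [hf, zero_mul, f.fn_base, sub_zero] at h
    rw [Lip0.fn_zero]
    exact abs_nonpos_iff.mp h

/-- `Lip0 M o` is normed by the Lipschitz constant. -/
noncomputable instance instNormedAddCommGroupLip0 (o : M) : NormedAddCommGroup (Lip0 M o) :=
  AddGroupNorm.toNormedAddCommGroup (lipAddGroupNorm o)

theorem lip0_norm_def {o : M} (f : Lip0 M o) : ‖f‖ = lipNorm f := rfl

noncomputable instance instNormedSpaceLip0 (o : M) : NormedSpace ℝ (Lip0 M o) where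
  norm_smul_le c f := by
    refine lipNorm_le (c • f) _ (mul_nonneg (norm_nonneg c) (lipNorm_nonneg f)) fun x y => ?_
    rw [Lip0.fn_smul, Lip0.fn_smul, ← mul_sub, abs_mul, Real.norm_eq_abs, mul_assoc]
    exact mul_le_mul_of_nonneg_left (lipNorm_spec f x y) (abs_nonneg c)

/-- The norm of `Lip0 M o` is a Lipschitz constant. -/
theorem lip0_abs_sub_le {o : M} (f : Lip0 M o) (x y : M) :
    |f.fn x - f.fn y| ≤ ‖f‖ * dist x y :=
  lipNorm_spec f x y

/-- The norm of `Lip0 M o` is the least Lipschitz constant. -/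
theorem lip0_norm_le {o : M} (f : Lip0 M o) (K : ℝ) (hK : 0 ≤ K)
    (h : ∀ x y, |f.fn x - f.fn y| ≤ K * dist x y) : ‖f‖ ≤ K :=
  lipNorm_le f K hK h

variable (M)

/-- The evaluation functional `δ_x` on `Lip0 M o`. -/
noncomputable def delta (o : M) (x : M) : Lip0 M o →L[ℝ] ℝ :=
  LinearMap.mkContinuous
    { toFun := fun f => f.fn x
      map_add' := fun _ _ => rfl
      map_smul' := fun _ _ => rfl }
    (dist x o) (fun f => by
      have h := lip0_abs_sub_le f x o
      have hfo : f.fn o = 0 := f.fn_base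
      rw [hfo, sub_zero, mul_comm] at h
      exact h)

theorem delta_apply (o x : M) (f : Lip0 M o) : delta M o x f = f.fn x := rfl

/-- The Lipschitz-free space of `M`: the closed linear span of the evaluation functionals in
the dual of `Lip0 M o`. -/
noncomputable def free (o : M) : Submodule ℝ (Lip0 M o →L[ℝ] ℝ) :=
  (Submodule.span ℝ (Set.range (delta M o))).topologicalClosure

/-- `M` is uniformly discrete: its nonzero distances are bounded below by a positive constant. -/
def UniformlyDiscrete : Prop := ∃ θ : ℝ, 0 < θ ∧ ∀ x y : M, x ≠ y → θ ≤ dist x y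

end

/-- The `lam`-bounded approximation property of a real normed space `X`: every compact set is
approximated uniformly, to any accuracy, by a finite-rank bounded operator of norm at most
`lam`. -/
def BAP (lam : ℝ) (X : Type*) [NormedAddCommGroup X] [NormedSpace ℝ X] : Prop :=
  ∀ C : Set X, IsCompact C → ∀ ε : ℝ, 0 < ε → ∃ T : X →L[ℝ] X,
    FiniteDimensional ℝ (LinearMap.range (T : X →ₗ[ℝ] X)) ∧ ‖T‖ ≤ lam ∧
      ∀ u ∈ C, ‖T u - u‖ < ε

/-- The Lipschitz-free space of `M` (base point `o`) has the `lam`-bounded approximation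
property. -/
def FreeBAP (lam : ℝ) (M : Type u) [MetricSpace M] (o : M) : Prop := BAP lam (free M o)

end Vale.Agent.Lib.P090.H89
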