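import Mathlib
import Vale.Agent.Lib.P090.helper89.Core

/-!
P090: the bounded linear map between Lipschitz-free spaces induced by a Lipschitz map
(base points are arbitrary), its norm bound, and the retract identity.
-/

namespace Vale.Agent.Lib.P090.H89

open scoped NNReal ENNReal

universe u

variable {M N : Type u} [MetricSpace M] [MetricSpace N]

theorem lipschitzWith_norm {o : M} (f : Lip0 M o) : LipschitzWith ‖f‖₊ f.fn :=
  LipschitzWith.of_dist_le_mul fun x y => by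
    rw [Real.dist_eq, coe_nnnorm]
    exact lip0_abs_sub_le f x y

/-- The composition operator `f ↦ f ∘ φ - f (φ o)` as a linear map. -/
noncomputable def comp0Lin (φ : M → N) (K : ℝ≥0) (hφ : LipschitzWith K φ) (o : M) (o' : N) :
    Lip0 N o' →ₗ[ℝ] Lip0 M o where
  toFun f := Lip0.mk (fun x => f.fn (φ x) - f.fn (φ o)) (sub_self _) (‖f‖₊ * K)
    (LipschitzWith.of_dist_le_mul fun x y => by
      rw [dist_sub_right]
      exact ((lipschitzWith_norm f).comp hφ).dist_le_mul x y)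
  map_add' f g := by
    apply Lip0.ext
    intro x
    simp only [Lip0.mk_fn, Lip0.fn_add]
    ring
  map_smul' c f := by
    apply Lip0.ext
    intro x
    simp only [Lip0.mk_fn, Lip0.fn_smul, RingHom.id_apply]
    ring

theorem comp0Lin_fn (φ : M → N) (K : ℝ≥0) (hφ : LipschitzWith K φ) (o : M) (o' : N)
    (f : Lip0 N o') (x : M) :
    (comp0Lin φ K hφ o o' f).fn x = f.fn (φ x) - f.fn (φ o) := rfl

theorem comp0Lin_bound (φ : M → N) (K : ℝ≥0) (hφ : LipschitzWith K φ) (o : M) (o' : N)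
    (f : Lip0 N o') : ‖comp0Lin φ K hφ o o' f‖ ≤ K * ‖f‖ := by
  refine lip0_norm_le _ _ (by positivity) fun x y => ?_
  have h1 := lip0_abs_sub_le f (φ x) (φ y)
  have h2 := hφ.dist_le_mul x y
  rw [comp0Lin_fn, comp0Lin_fn]
  have e : (f.fn (φ x) - f.fn (φ o)) - (f.fn (φ y) - f.fn (φ o)) = f.fn (φ x) - f.fn (φ y) := by
    ring
  rw [e]
  calc |f.fn (φ x) - f.fn (φ y)| ≤ ‖f‖ * dist (φ x) (φ y) := h1
    _ ≤ ‖f‖ * (K * dist x y) := mul_le_mul_of_nonneg_left h2 (norm_nonneg f)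
    _ = K * ‖f‖ * dist x y := by ring

/-- The composition operator `f ↦ f ∘ φ - f (φ o)` from `Lip0 N o'` to `Lip0 M o`. -/
noncomputable def comp0 (φ : M → N) (K : ℝ≥0) (hφ : LipschitzWith K φ) (o : M) (o' : N) :
    Lip0 N o' →L[ℝ] Lip0 M o :=
  (comp0Lin φ K hφ o o').mkContinuous K (comp0Lin_bound φ K hφ o o')

theorem comp0_fn (φ : M → N) (K : ℝ≥0) (hφ : LipschitzWith K φ) (o : M) (o' : N)
    (f : Lip0 N o') (x : M) :
    (comp0 φ K hφ o o' f).fn x = f.fn (φ x) - f.fn (φ o) := rfl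

theorem norm_comp0_le (φ : M → N) (K : ℝ≥0) (hφ : LipschitzWith K φ) (o : M) (o' : N) :
    ‖comp0 φ K hφ o o'‖ ≤ K :=
  LinearMap.mkContinuous_norm_le _ K.2 _

/-- The adjoint of the composition operator. -/
noncomputable def adj (φ : M → N) (K : ℝ≥0) (hφ : LipschitzWith K φ) (o : M) (o' : N) :
    (Lip0 M o →L[ℝ] ℝ) →L[ℝ] (Lip0 N o' →L[ℝ] ℝ) :=
  (ContinuousLinearMap.compL ℝ (Lip0 N o') (Lip0 M o) ℝ).flip (comp0 φ K hφ o o')

theorem adj_apply (φ : M → N) (K : ℝ≥0) (hφ : LipschitzWith K φ) (o : M) (o' : N)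
    (g : Lip0 M o →L[ℝ] ℝ) (f : Lip0 N o') :
    adj φ K hφ o o' g f = g (comp0 φ K hφ o o' f) := rfl

theorem adj_eq_comp (φ : M → N) (K : ℝ≥0) (hφ : LipschitzWith K φ) (o : M) (o' : N)
    (g : Lip0 M o →L[ℝ] ℝ) : adj φ K hφ o o' g = g.comp (comp0 φ K hφ o o') := rfl

theorem norm_adj_apply_le (φ : M → N) (K : ℝ≥0) (hφ : LipschitzWith K φ) (o : M) (o' : N)
    (g : Lip0 M o →L[ℝ] ℝ) : ‖adj φ K hφ o o' g‖ ≤ K * ‖g‖ := by
  rw [adj_eq_comp]
  calc ‖g.comp (comp0 φ K hφ o o')‖ ≤ ‖g‖ * ‖comp0 φ K hφ o o'‖ :=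
        ContinuousLinearMap.opNorm_comp_le _ _
    _ ≤ ‖g‖ * K := mul_le_mul_of_nonneg_left (norm_comp0_le φ K hφ o o') (norm_nonneg g)
    _ = K * ‖g‖ := mul_comm _ _

theorem adj_delta (φ : M → N) (K : ℝ≥0) (hφ : LipschitzWith K φ) (o : M) (o' : N) (x : M) :
    adj φ K hφ o o' (delta M o x) = delta N o' (φ x) - delta N o' (φ o) := by
  ext f
  rfl

theorem adj_mem_span (φ : M → N) (K : ℝ≥0) (hφ : LipschitzWith K φ) (o : M) (o' : N)
    (g : Lip0 M o →L[ℝ] ℝ) (hg : g ∈ Submodule.span ℝ (Set.range (delta M o))) :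
    adj φ K hφ o o' g ∈ Submodule.span ℝ (Set.range (delta N o')) := by
  induction hg using Submodule.span_induction with
  | mem g hg =>
    obtain ⟨x, rfl⟩ := hg
    rw [adj_delta]
    exact Submodule.sub_mem _ (Submodule.subset_span ⟨φ x, rfl⟩)
      (Submodule.subset_span ⟨φ o, rfl⟩)
  | zero =>
    rw [map_zero]
    exact Submodule.zero_mem _
  | add a b _ _ ha hb =>
    rw [map_add]
    exact Submodule.add_mem _ ha hb
  | smul c a _ ha =>
    rw [map_smul]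
    exact Submodule.smul_mem _ c ha

theorem adj_mem_free (φ : M → N) (K : ℝ≥0) (hφ : LipschitzWith K φ) (o : M) (o' : N)
    (g : Lip0 M o →L[ℝ] ℝ) (hg : g ∈ free M o) : adj φ K hφ o o' g ∈ free N o' := by
  have hmaps : Set.MapsTo (adj φ K hφ o o')
      (Submodule.span ℝ (Set.range (delta M o)) : Set (Lip0 M o →L[ℝ] ℝ))
      (Submodule.span ℝ (Set.range (delta N o')) : Set (Lip0 N o' →L[ℝ] ℝ)) :=
    fun g hg => adj_mem_span φ K hφ o o' g hg
  exact map_mem_closure (adj φ K hφ o o').continuous hg hmaps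

/-- The bounded linear map `free M o → free N o'` induced by the Lipschitz map `φ`. -/
noncomputable def freeMap (φ : M → N) (K : ℝ≥0) (hφ : LipschitzWith K φ) (o : M) (o' : N) :
    free M o →L[ℝ] free N o' :=
  ((adj φ K hφ o o').comp (free M o).subtypeL).codRestrict (free N o')
    (fun y => adj_mem_free φ K hφ o o' y.1 y.2)

theorem freeMap_coe (φ : M → N) (K : ℝ≥0) (hφ : LipschitzWith K φ) (o : M) (o' : N)
    (y : free M o) :
    ((freeMap φ K hφ o o' y : free N o') : Lip0 N o' →L[ℝ] ℝ) = adj φ K hφ o o' y.1 := rfl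

theorem freeMap_bound (φ : M → N) (K : ℝ≥0) (hφ : LipschitzWith K φ) (o : M) (o' : N)
    (y : free M o) : ‖freeMap φ K hφ o o' y‖ ≤ K * ‖y‖ :=
  norm_adj_apply_le φ K hφ o o' y.1

theorem comp0_retract (ι : N → M) (ρ : M → N) (A B : ℝ≥0) (hι : LipschitzWith A ι)
    (hρ : LipschitzWith B ρ) (hρι : ∀ x, ρ (ι x) = x) (o : M) (o' : N) (f : Lip0 N o') :
    comp0 ι A hι o' o (comp0 ρ B hρ o o' f) = f := by
  apply Lip0.ext
  intro x
  rw [comp0_fn, comp0_fn, comp0_fn, hρι, hρι, f.fn_base]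
  ring

theorem freeMap_retract (ι : N → M) (ρ : M → N) (A B : ℝ≥0) (hι : LipschitzWith A ι)
    (hρ : LipschitzWith B ρ) (hρι : ∀ x, ρ (ι x) = x) (o : M) (o' : N) (y : free N o') :
    freeMap ρ B hρ o o' (freeMap ι A hι o' o y) = y := by
  apply Subtype.ext
  apply ContinuousLinearMap.ext
  intro f
  show y.1 (comp0 ι A hι o' o (comp0 ρ B hρ o o' f)) = y.1 f
  rw [comp0_retract ι ρ A B hι hρ hρι o o' f]

end Vale.Agent.Lib.P090.H89
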