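import Mathlib
import Vale.Agent.Lib.P090.helper89.Core

/-!
# P090: the disjoint union of metric spaces (Mathlib's `Metric.Sigma` metric)

Written by helper43 (pool job B, `Lib/P090/helper43/SigmaSpace.lean`); this is the same text in
the namespace `H89`, on top of `helper89/Core.lean`.
-/

namespace Vale.Agent.Lib.P090.H89



open scoped NNReal ENNReal

universe u

attribute [local instance] Metric.Sigma.metricSpace

variable {E : ℕ → Type u} [∀ n, MetricSpace (E n)]

/-- The distance between two points of the same piece. -/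
theorem sigma_dist_same (i : ℕ) (x y : E i) :
    dist (Sigma.mk i x : Σ k, E k) ⟨i, y⟩ = dist x y :=
  Metric.Sigma.dist_same i x y

/-- The distance between two points of different pieces. -/
theorem sigma_dist_ne {i j : ℕ} (hij : i ≠ j) (x : E i) (y : E j) :
    dist (⟨i, x⟩ : Σ k, E k) ⟨j, y⟩
      = dist x (Nonempty.some ⟨x⟩) + 1 + dist (Nonempty.some ⟨y⟩) y :=
  Metric.Sigma.dist_ne hij x y

theorem sigma_mk_lipschitz (n : ℕ) : LipschitzWith 1 (Sigma.mk n : E n → Σ k, E k) :=
  (Metric.Sigma.isometry_mk n).lipschitz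

/-- A retraction of the disjoint union onto its n-th piece. -/
noncomputable def sigmaRet (n : ℕ) (c : E n) : (Σ k, E k) → E n := fun p =>
  if h : p.1 = n then h ▸ p.2 else Nonempty.some ⟨c⟩

theorem sigmaRet_mk (n : ℕ) (c x : E n) : sigmaRet n c (Sigma.mk n x) = x :=
  dif_pos rfl

theorem sigmaRet_of_ne (n : ℕ) (c : E n) {i : ℕ} (hi : i ≠ n) (x : E i) :
    sigmaRet n c (Sigma.mk i x) = Nonempty.some ⟨c⟩ :=
  dif_neg hi

theorem sigmaRet_lipschitz (n : ℕ) (c : E n) : LipschitzWith 1 (sigmaRet n c) := by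
  refine LipschitzWith.of_dist_le_mul ?_
  rintro ⟨i, x⟩ ⟨j, y⟩
  rw [NNReal.coe_one, one_mul]
  by_cases hi : i = n
  · subst hi
    by_cases hj : j = i
    · subst hj
      rw [sigmaRet_mk, sigmaRet_mk, sigma_dist_same]
    · rw [sigmaRet_mk, sigmaRet_of_ne i c hj, sigma_dist_ne (Ne.symm hj)]
      have h1 : (0 : ℝ) ≤ dist (Nonempty.some ⟨y⟩) y := dist_nonneg
      have h2 : dist x (Nonempty.some ⟨c⟩) = dist x (Nonempty.some ⟨x⟩) := rfl
      rw [h2]
      linarith
  · by_cases hj : j = n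
    · subst hj
      rw [sigmaRet_mk, sigmaRet_of_ne j c hi, sigma_dist_ne hi]
      have h1 : (0 : ℝ) ≤ dist x (Nonempty.some ⟨x⟩) := dist_nonneg
      have h2 : dist (Nonempty.some ⟨c⟩) y = dist (Nonempty.some ⟨y⟩) y := rfl
      rw [h2]
      linarith
    · rw [sigmaRet_of_ne n c hi, sigmaRet_of_ne n c hj, dist_self]
      exact dist_nonneg

theorem sigma_uniformlyDiscrete (h : ∀ n, ∀ x y : E n, x ≠ y → 1 ≤ dist x y) :
    UniformlyDiscrete (Σ k, E k) := by
  refine ⟨1, one_pos, ?_⟩
  rintro ⟨i, x⟩ ⟨j, y⟩ hne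
  by_cases hij : i = j
  · subst hij
    rw [sigma_dist_same]
    refine h i x y ?_
    intro hxy
    exact hne (by rw [hxy])
  · exact Metric.Sigma.one_le_dist_of_ne hij x y

end Vale.Agent.Lib.P090.H89
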