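import Mathlib
import Vale.Agent.Lib.P090.helper89.Core
import Vale.Agent.Lib.P090.helper89.Retract
import Vale.Agent.Lib.P090.helper89.SigmaSpace
import Vale.Agent.Lib.P090.helper89.Scaled
import Vale.Agent.Lib.P090.helper89.FreeMap

/-!
P090: if the Lipschitz-free space of every uniformly discrete metric space has the bounded
approximation property, then one constant works for all of them (assembly).
-/

namespace Vale.Agent.Lib.P090.H89

open scoped NNReal ENNReal

universe u

/-- The bounded approximation property of free spaces passes to Lipschitz retracts, with the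
product of the two Lipschitz constants as a factor. -/
theorem BAP_free_of_retract {M N : Type u} [MetricSpace M] [MetricSpace N]
    (ι : N → M) (ρ : M → N) (A B : ℝ≥0) (hι : LipschitzWith A ι)
    (hρ : LipschitzWith B ρ) (hρι : ∀ x, ρ (ι x) = x) (o : M) (o' : N) (a : ℝ)
    (h : BAP a (free M o)) : BAP ((B : ℝ) * (A : ℝ) * a) (free N o') := by
  refine BAP.of_retract (freeMap ι A hι o' o) (freeMap ρ B hρ o o')
    (freeMap_retract ι ρ A B hι hρ hρι o o') _ a ?_ h
  exact mul_le_mul (ContinuousLinearMap.opNorm_le_bound _ B.2 (freeMap_bound ρ B hρ o o'))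
    (ContinuousLinearMap.opNorm_le_bound _ A.2 (freeMap_bound ι A hι o' o)) (norm_nonneg _) B.2

attribute [local instance] Metric.Sigma.metricSpace

theorem sigma_BAP {E : ℕ → Type u} [∀ n, MetricSpace (E n)] (c : ∀ n, E n) (lam : ℝ)
    (p : Σ k, E k) (h : BAP lam (free (Σ k, E k) p)) (n : ℕ) : BAP lam (free (E n) (c n)) := by
  have h1 := BAP_free_of_retract (Sigma.mk n : E n → Σ k, E k) (sigmaRet n (c n)) 1 1
    (sigma_mk_lipschitz n) (sigmaRet_lipschitz n (c n)) (fun x => sigmaRet_mk n (c n) x)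
    p (c n) lam h
  refine BAP.mono h1 ?_
  simp

theorem scaled_BAP {M : Type u} [MetricSpace M] (t : ℝ) (o : M) (lam : ℝ)
    (h : BAP lam (free (Scaled t M) (toScaled t o))) : BAP lam (free M o) := by
  have h2 := BAP_free_of_retract (toScaled t : M → Scaled t M) (ofScaled t : Scaled t M → M)
    _ _ (toScaled_lipschitz t) (ofScaled_lipschitz t) (fun x => ofScaled_toScaled t x)
    (toScaled t o) o lam h
  refine BAP.mono h2 ?_
  have e1 : ((Real.toNNReal (Real.exp (-t)) : ℝ≥0) : ℝ)
      * ((Real.toNNReal (Real.exp t) : ℝ≥0) : ℝ) = 1 := by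
    rw [Real.coe_toNNReal _ (Real.exp_pos _).le, Real.coe_toNNReal _ (Real.exp_pos _).le,
      ← Real.exp_add]
    simp
  rw [e1, one_mul]

theorem uniform_of_all
    (h : ∀ (M : Type u) [MetricSpace M] (o : M), UniformlyDiscrete M →
      ∃ lam : ℝ, BAP lam (free M o)) :
    ∃ lam : ℝ, ∀ (M : Type u) [MetricSpace M] (o : M), UniformlyDiscrete M →
      BAP lam (free M o) := by
  by_contra hcon
  push Not at hcon
  choose M inst o hud hnot using fun n : ℕ => hcon (n : ℝ)
  choose θ hθ hsep using hud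
  obtain ⟨lam, hlam⟩ := h (Σ n, Scaled (-Real.log (θ n)) (M n)) ⟨0, toScaled _ (o 0)⟩
    (sigma_uniformlyDiscrete fun n => scaled_separated (θ n) (hθ n) (hsep n))
  obtain ⟨n, hn⟩ := exists_nat_ge lam
  have h1 := sigma_BAP (E := fun n => Scaled (-Real.log (θ n)) (M n))
    (fun n => toScaled (-Real.log (θ n)) (o n)) lam _ hlam n
  have h2 := scaled_BAP (-Real.log (θ n)) (o n) lam h1
  exact hnot n (BAP.mono h2 hn)

/-- The uniform form, with constants at least one on both sides. -/
theorem uniform_iff :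
    (∀ (M : Type u) [MetricSpace M] (o : M), UniformlyDiscrete M →
      ∃ lam : ℝ, 1 ≤ lam ∧ FreeBAP lam M o) ↔
    (∃ lam : ℝ, 1 ≤ lam ∧ ∀ (M : Type u) [MetricSpace M] (o : M), UniformlyDiscrete M →
      FreeBAP lam M o) := by
  constructor
  · intro h
    obtain ⟨lam, hlam⟩ := uniform_of_all (fun M _ o hM => by
      obtain ⟨lam, _, hl⟩ := h M o hM
      exact ⟨lam, hl⟩)
    exact ⟨max lam 1, le_max_right _ _, fun M _ o hM =>
      BAP.mono (hlam M o hM) (le_max_left _ _)⟩
  · rintro ⟨lam, h1, h⟩ M _ o hM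
    exact ⟨lam, h1, h M o hM⟩

end Vale.Agent.Lib.P090.H89
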